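import Vale.Agent.P159.MathlibUsed

/-!
The square-lattice XY model, its infinite volume correlations, and the stiffness (helicity
modulus) of a block with wired boundary condition.
-/

open MeasureTheory Filter Topology

namespace Vale.Agent.P159

instance factTwoPi : Fact (0 < 2 * Real.pi) := ⟨Real.two_pi_pos⟩

/-- the circle of angles `ℝ / 2π ℤ` -/
abbrev T : Type := AddCircle (2 * Real.pi)

/-- the product over the finite set `V` of the normalised Haar measures of the circle -/
noncomputable def torusHaar (V : Type*) [Fintype V] : Measure (V → T) :=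
  Measure.pi fun _ => AddCircle.haarAddCircle

/-- expectation of `f` under the probability measure proportional to `exp H` -/
noncomputable def expect {V : Type*} [Fintype V] (H f : (V → T) → ℝ) : ℝ :=
  (∫ θ, f θ * Real.exp (H θ) ∂torusHaar V) / ∫ θ, Real.exp (H θ) ∂torusHaar V

/-- spins on the finite set `S` of sites, extended by the angle `0` -/
noncomputable def ext {S : Finset (ℤ × ℤ)} (θ : S → T) (x : ℤ × ℤ) : T :=
  if h : x ∈ S then θ ⟨x, h⟩ else 0

/-- the box `[-R,R]²` -/
noncomputable def box (R : ℕ) : Finset (ℤ × ℤ) := Finset.Icc (-(R : ℤ), -(R : ℤ)) ((R : ℤ), (R : ℤ))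

/-- coupling `b` between each site `u` and its right and upper neighbours `v` -/
def nn (b : ℝ) (u v : ℤ × ℤ) : ℝ := if v = u + (1, 0) ∨ v = u + (0, 1) then b else 0

/-- the energy in the box: every nearest neighbour pair of the box is counted once -/
noncomputable def boxEnergy (R : ℕ) (b : ℝ) (θ : box R → T) : ℝ :=
  ∑ u : box R, ∑ v : box R, nn b u v * Real.Angle.cos (θ u - θ v)

/-- finite volume two-point function between `0` and `x` -/
noncomputable def corr (R : ℕ) (b : ℝ) (x : ℤ × ℤ) : ℝ :=
  expect (boxEnergy R b) fun θ => Real.Angle.cos (ext θ 0 - ext θ x)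

/-- infinite volume two-point function between `0` and `x` -/
noncomputable def corrInf (b : ℝ) (x : ℤ × ℤ) : ℝ := limUnder atTop fun R : ℕ => corr R b x

/-- inverse correlation length -/
noncomputable def mass (b : ℝ) : ℝ :=
  limUnder atTop fun r : ℕ => -(1 / (r : ℝ)) * Real.log (corrInf b ((r : ℤ), 0))

/-- critical inverse temperature -/
noncomputable def bCrit : ℝ := sInf {b : ℝ | 0 < b ∧ mass b = 0}

/-- correlation length -/
noncomputable def corrLength (b : ℝ) : ℝ := 1 / mass b

/-- cosine of an angle -/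
noncomputable def cosT (x : T) : ℝ := Real.Angle.cos x

/-- sine of an angle -/
noncomputable def sinT (x : T) : ℝ := Real.Angle.sin x

/-- the sites of the block `[0,l]²` off its boundary -/
noncomputable def inner (l : ℕ) : Finset (ℤ × ℤ) := Finset.Icc (1, 1) ((l : ℤ) - 1, (l : ℤ) - 1)

/-- sum of `f (θ u - θ v)` over the horizontal bonds `(u,v)` of the block `[0,l]²`, with weight
`b/2` for each unit square containing the bond: weight `b` off the boundary of the block,
weight `b/2` on the boundary -/
noncomputable def horiz (l : ℕ) (b : ℝ) (f : T → ℝ) (θ : ℤ × ℤ → T) : ℝ :=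
  ∑ i ∈ Finset.range l, ∑ j ∈ Finset.range l,
    b / 2 * (f (θ ((i : ℤ), (j : ℤ)) - θ ((i : ℤ) + 1, (j : ℤ)))
      + f (θ ((i : ℤ), (j : ℤ) + 1) - θ ((i : ℤ) + 1, (j : ℤ) + 1)))

/-- the same for vertical bonds -/
noncomputable def vert (l : ℕ) (b : ℝ) (f : T → ℝ) (θ : ℤ × ℤ → T) : ℝ :=
  ∑ i ∈ Finset.range l, ∑ j ∈ Finset.range l,
    b / 2 * (f (θ ((i : ℤ), (j : ℤ)) - θ ((i : ℤ), (j : ℤ) + 1))
      + f (θ ((i : ℤ) + 1, (j : ℤ)) - θ ((i : ℤ) + 1, (j : ℤ) + 1)))

/-- energy of the block `[0,l]²`; spins off `inner l` are `0` -/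
noncomputable def blockEnergy (l : ℕ) (b : ℝ) (θ : inner l → T) : ℝ :=
  horiz l b cosT (ext θ) + vert l b cosT (ext θ)

/-- stiffness (helicity modulus) of the wired block of side `l` -/
noncomputable def stiff (l : ℕ) (b : ℝ) : ℝ :=
  (expect (blockEnergy l b) (fun θ => horiz l b cosT (ext θ))
    - expect (blockEnergy l b) (fun θ => (horiz l b sinT (ext θ)) ^ 2)) / (l : ℝ) ^ 2

end Vale.Agent.P159
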