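import Vale.Agent.P159.Defs

/-!
The helicity modulus.
-/

namespace Vale.Agent.P159

/-- helicity modulus: infimum of the stiffnesses of the wired blocks -/
noncomputable def helicity (b : ℝ) : ℝ := ⨅ l : ℕ, stiff (l + 1) b

end Vale.Agent.P159
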