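import Mathlib.AlgebraicTopology.FundamentalGroupoid.SimplyConnected
import Mathlib.Analysis.Calculus.ParametricIntegral
import Mathlib.Analysis.Complex.CauchyIntegral
import Mathlib.Analysis.Complex.ExponentialBounds
import Mathlib.Analysis.Convex.Contractible
import Mathlib.Analysis.Fourier.AddCircle
import Mathlib.Analysis.Normed.Group.Tannery
import Mathlib.Analysis.Real.Pi.Bounds
import Mathlib.Analysis.SpecialFunctions.Complex.LogBounds
import Mathlib.Analysis.SpecialFunctions.SmoothTransition
import Mathlib.Analysis.SpecialFunctions.Trigonometric.DerivHyp
import Mathlib.Analysis.Subadditive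
import Mathlib.CategoryTheory.Countable
import Mathlib.Computability.Reduce
import Mathlib.Control.Monad.Cont
import Mathlib.Data.Int.Star
import Mathlib.MeasureTheory.Integral.Pi
import Mathlib.MeasureTheory.Measure.RegularityCompacts
import Mathlib.NumberTheory.Harmonic.Bounds
import Mathlib.Tactic
import Mathlib.Topology.UniformSpace.Uniformizable

/-! The part of Mathlib that the development of this folder uses. -/
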